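import Vale.Agent.P011UY.Loc
import Vale.Agent.P011UE.Kit
import Vale.Agent.P011.H925.Full.BrPlace
import Vale.Agent.P011.H698.DensFF

/-!
The conjecture for `SL_1(D)` from the openness of the normal subgroups and weak approximation.
-/

open Module Filter TensorProduct Topology

namespace Vale.Agent.P011UY

open Vale.Agent.P011UE
open Vale.Agent.P011.H738 (Place)
open Vale.Agent.P011.H271 (norm_alg)
open Vale.Agent.P011.H925.Full (Kv toPlace isPlace_abv)

attribute [local instance] tp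

variable {k D : Type} [Field k] [DivisionRing D] [Algebra k D] [FiniteDimensional k D] {n : ℕ}
  {N : D →* k} {T : Finset (Place k)}

local instance (v : Place k) : IsModuleTopology v.comp (v.comp ⊗[k] D) := ⟨rfl⟩
local instance (v : Place k) : IsTopologicalRing (v.comp ⊗[k] D) :=
  IsModuleTopology.isTopologicalRing v.comp _

theorem dist_tm (v : Place k) (x : D) (j : Fin (finrank k D)) :
    dist ((bs v.comp D).repr (1 ⊗ₜ x) j) ((bs v.comp D).repr 1 j) =
      v.abv ((finBasis k D).repr (x - 1) j) := by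
  rw [dist_eq_norm, Algebra.TensorProduct.one_def, repr_tm, repr_tm, ← map_sub, norm_alg,
    map_sub (finBasis k D).repr, Finsupp.sub_apply]

theorem td_nT {v : Place k} (hv : v ∈ T) :
    Tendsto (fun x : D => (1 : v.comp) ⊗ₜ[k] x) (nT T D) (𝓝 1) :=
  td_bs.2 fun j => Metric.tendsto_nhds.2 fun ε e => ⟨ε, e, fun x h => (dist_tm v x j).trans_lt
    (h v hv j)⟩

/-- Weak approximation in the algebra. -/
theorem wa (y : ∀ v : Place k, v.comp ⊗[k] D) : ∃ d : ℕ → D, ∀ v ∈ T,
    Tendsto (fun m => (1 : v.comp) ⊗ₜ[k] d m) atTop (𝓝 (y v)) := by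
  choose a ha using fun (m : ℕ) j => P011.H698.place_weak T
    (fun v => (bs v.1.comp D).repr (y v) j) (Nat.one_div_pos_of_nat (α := ℝ) (n := m))
  refine ⟨fun m => (finBasis k D).equivFun.symm (a m), fun v hv => td_bs.2 fun j =>
    tendsto_iff_norm_sub_tendsto_zero.2 (squeeze_zero (fun _ => norm_nonneg _) (fun m => ?_)
      tendsto_one_div_add_atTop_nhds_zero_nat)⟩
  rw [repr_tm, ← Basis.equivFun_apply, LinearEquiv.apply_symm_apply]
  exact (ha m j ⟨v, hv⟩).le

/-- The place of an element of `AD`. -/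
def pl (v : AD k D) : Place k := toPlace v.abv ⟨v.nonarch, v.normalized⟩

omit [FiniteDimensional k D] in
theorem pl_inj : Function.Injective (pl (k := k) (D := D)) := fun v w e => by
  cases v; cases w
  congr 1
  exact congrArg Place.abv e

/-- The diagonal map. -/
noncomputable def dg (h : Dv k D n N) : G1 N →* ∀ v : AD k D, GP k D (Kv v.abv) n :=
  MonoidHom.pi fun v => ((Units.map (Algebra.TensorProduct.includeRight :
    D →ₐ[k] Kv v.abv ⊗[k] D).toMonoidHom).comp (G1 N).subtype).codRestrict _ fun g =>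
      Subgroup.subset_closure fun Ω _ (i : Algebra (pl v).comp Ω) F =>
        (det_tm (L := (pl v).comp) h Ω F g.1).trans (by rw [mem_G1.1 g.2, map_one, map_one])

theorem dense (h : Dv k D n N) (hT : T.Nonempty)
    (s : ∀ v ∉ T, Sp D n v) (ns : NSUR) : DenseRange (dg h) := fun x => by
  classical
  obtain ⟨y, y1, y2⟩ : ∃ y : ∀ v : Place k, v.comp ⊗[k] D, (∀ v, One n (y v)) ∧
      ∀ v : AD k D, y (pl v) = (x v).1.1 :=
    ⟨fun v => if e : Dp D v then (x ⟨v.abv, v.nonarch, (isPlace_abv v).2, e⟩).1.1 else 1,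
      fun v => by
        by_cases e : Dp D v
        · exact (congrArg (One n) (dif_pos e)).mpr
            (one_gp (L := v.comp) (x ⟨v.abv, v.nonarch, (isPlace_abv v).2, e⟩))
        · exact (congrArg (One n) (dif_neg e)).mpr fun Ω _ _ F => by simp, fun v => dif_pos v.div⟩
  obtain ⟨d, hd⟩ := wa (T := T) y
  have t : Tendsto (fun m => N (d m)) atTop (nT T k) := fun O hO => by
    obtain ⟨ε, e, hO⟩ := mem_nT_base.1 hO
    refine ((eventually_all_finset T).2 fun v hv => ?_).mono fun m => hO _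
    obtain ⟨g, g1, g2, g3⟩ := ex_nrd v.comp h
    refine (Metric.tendsto_nhds.1 ((g1.tendsto _).comp (hd v hv)) ε e).mono fun m l => ?_
    rwa [Function.comp, g2, g3 _ (y1 v), dist_eq_norm, ← map_one (algebraMap k v.comp), ← map_sub,
      norm_alg] at l
  let S := {p : ℕ × Dˣ × Dˣ // d p.1 = p.2.1 ∧ p.2.1 * p.2.2 ∈ G1 N}
  let F : Filter S := (atTop ×ˢ nU T D).comap fun p => (p.1.1, p.1.2.2)
  have : F.NeBot := comap_neBot fun U hU => by
    obtain ⟨U1, h1, U2, h2, h3⟩ := mem_prod_iff.1 hU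
    obtain ⟨m, a1, a2, a3⟩ := (((nT_inv t).eventually (ns k D n N h T hT s U2 h2)).and
      ((t.eventually (ev_ne hT zero_ne_one)).and h1)).exists
    have z : d m ≠ 0 := fun z => a2 (by
      have := h.le
      rw [z, ← map_zero (algebraMap k D), h.alg, zero_pow (by omega)])
    obtain ⟨u, b1, b2⟩ := a1 (inv_ne_zero a2) fun φ =>
      (h.pos (Units.mk0 _ z) φ).imp_right fun e => by rw [map_inv₀]; exact inv_pos.2 e
    exact ⟨⟨(m, Units.mk0 _ z, u), rfl, mem_G1.2 (by
      rw [Units.val_mul, map_mul, b2]; exact mul_inv_cancel₀ a2)⟩, h3 ⟨a3, b1⟩⟩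
  refine mem_closure_of_tendsto (b := F) (f := fun p => dg h ⟨_, p.2.2⟩)
    (tendsto_pi_nhds.2 fun v => ?_) (.of_forall fun _ => ⟨_, rfl⟩)
  have hv : pl v ∈ T := by_contra fun e => not_spl (L := (pl v).comp) h v.div (s _ e)
  have c : Tendsto _ F _ := tendsto_comap
  have := ((hd _ hv).comp (tendsto_fst.comp c)).mul
    (((td_nT hv).comp (tendsto_val T)).comp (tendsto_snd.comp c))
  rw [mul_one, y2] at this
  have i : IsInducing fun w : GP k D (pl v).comp n => w.1.1 := ⟨rfl⟩
  refine i.tendsto_nhds_iff.2 (this.congr fun p => ?_)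
  simp only [Function.comp, Algebra.TensorProduct.tmul_mul_tmul, one_mul, p.2.1]
  rfl

theorem asm (fi : FI) (ns : NSUR) (ram : RAM) : MPD := fun k D _ _ _ _ n N h => by
  classical
  obtain ⟨r, _⟩ := ram k D n N h
  have r0 : {v : Place k | Dp D v}.Finite := r.subset fun v e => not_spl h e
  have : Finite (AD k D) := (r0.to_subtype).of_injective
    (fun v => ⟨pl v, v.div⟩) fun v w e => pl_inj (congrArg Subtype.val e)
  have : ∀ v : AD k D, IsTopologicalGroup (GP k D (Kv v.abv) n) := fun v =>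
    gp_grp (L := (pl v).comp) n
  obtain ⟨v0⟩ : Nonempty (Place k) := inferInstance
  refine ⟨dg h, fun _ _ => rfl, fun H hH nc => q_abs _ (dense h (Finset.insert_nonempty v0 r.toFinset)
    (fun v e => by_contra fun z => e (Finset.mem_insert_of_mem (r.mem_toFinset.2 z))) ns) H hH ?_⟩
  obtain ⟨x, x1, x2⟩ := SetLike.not_le_iff_exists.1 nc
  obtain ⟨z, hz⟩ := not_forall.1 (mt Subgroup.mem_center_iff.2 x2)
  obtain ⟨_, ⟨ε, e, o⟩, o'⟩ := fi k D n N h r0.toFinset (fun v e z => e (r0.mem_toFinset.2 z))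
    (H.map (G1 N).subtype) ⟨Subgroup.map_subtype_le H, fun g hg _ ⟨u, hu, e⟩ =>
      ⟨_, hH.conj_mem u hu ⟨g, hg⟩, e ▸ rfl⟩, _, ⟨x, x1, rfl⟩, z.1,
      fun e => hz (Subtype.ext (Units.ext e.symm))⟩
  have : ∀ᶠ w in 𝓝 (1 : ∀ v : AD k D, GP k D (Kv v.abv) n), ∀ v j,
      dist ((bs (pl v).comp D).repr (w v).1.1 j) ((bs (pl v).comp D).repr 1 j) < ε :=
    eventually_all.2 fun v => eventually_all.2 fun j => Metric.tendsto_nhds.1 (td_bs.1
      (((show Continuous fun w : GP k D (pl v).comp n => w.1.1 from continuous_induced_dom).comp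
        (continuous_apply v)).tendsto 1) j) ε e
  refine this.mono fun w l g eg => ?_
  subst eg
  obtain ⟨u, hu, e⟩ := o' (o g.1.1 fun v hv j => (dist_tm v g.1.1 j).symm.trans_lt
    (l ⟨v.abv, v.nonarch, (isPlace_abv v).2, r0.mem_toFinset.1 hv⟩ j)) g.2
  exact Subtype.ext e ▸ hu

end Vale.Agent.P011UY
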