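import Vale.Agent.P011UHB.Spec
import Vale.Agent.P011LD.H90
import Vale.Agent.P011LB.Md
import Vale.Agent.P011.Tpl.H359.Abhn
import Vale.Agent.P011.H428.C2Nrd

/-!
The reduced norm of an algebra of prime degree is surjective.
-/

open Matrix Polynomial TensorProduct Module

namespace Vale.Agent.P011UY

open Vale.Agent.P011LB (lf lf_tmul)
open Vale.Agent.P011L (Glob)
open Vale.Agent.P011U (NoR)
open Vale.Agent.P011UHB

variable {k K : Type} [Field k] [Field K] [Algebra k K] {n : ℕ}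

/-- The determinant on the one parameter group of an idempotent. -/
theorem det_idem {e : Matrix (Fin n) (Fin n) K} (he : e * e = e) (h0 : e.det = 0)
    (h1 : (1 - e).det = 0) : ∃ r, 0 < r ∧ r < n ∧ ∀ s : K, (1 - e + s • e).det = s ^ r := by
  let F := fun e : Matrix (Fin n) (Fin n) K => (1 - e.map C + (X : K[X]) • e.map C).det
  have ev : ∀ e s, (F e).eval s = (1 - e + s • e).det := fun e s =>
    ((evalRingHom s).map_det _).trans (congrArg det (Matrix.ext fun i j => by
      by_cases a : i = j <;> simp [one_apply, a, mul_comm s]))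
  have hm : F e * F (1 - e) = X ^ n := by
    have a : (1 - e).map (C : K →+* K[X]) = 1 - e.map C :=
      (map_sub (C : K →+* K[X]).mapMatrix 1 e).trans (by rw [map_one]; rfl)
    have b : e.map (C : K →+* K[X]) * e.map C = e.map C := by rw [← Matrix.map_mul, he]
    rw [← det_mul, a, show _ * _ = (X : K[X]) • (1 : Matrix (Fin n) (Fin n) K[X]) from ?_, det_smul,
      det_one, mul_one, Fintype.card_fin]
    simp only [mul_add, add_mul, mul_sub, sub_mul, mul_smul_comm, smul_mul_assoc, b, one_mul,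
      mul_one]
    module
  obtain ⟨r, hr, u, hu⟩ := (dvd_prime_pow prime_X n).1 ⟨_, hm.symm⟩
  obtain ⟨c, -, hc⟩ := Polynomial.isUnit_iff.1 u.isUnit
  have c1 : c = 1 := by simpa [ev, ← hc] using congrArg (eval 1) hu
  rw [← hc, c1, C_1, mul_one] at hu
  refine ⟨r, Nat.pos_of_ne_zero ?_, hr.lt_of_ne ?_, fun s => by rw [← ev, hu, eval_pow, eval_X]⟩
  · rintro rfl
    simpa [ev, h1] using congrArg (eval 0) hu
  · rintro rfl
    rw [hu, mul_eq_left₀ (pow_ne_zero _ X_ne_zero)] at hm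
    simpa [ev, h0] using congrArg (eval 0) hm

/-- The reduced norm of a form of a matrix algebra of prime degree is surjective. -/
theorem det_sur (hk : Glob k) (hR : NoR k) (hn : n.Prime) {A : Type} [Ring A] [Algebra k A]
    (w : A →ₐ[k] Matrix (Fin n) (Fin n) K) (hb : Function.Bijective (lf w : K ⊗[k] A →ₐ[K] _))
    {t : k} (ht : t ≠ 0) : ∃ a, (w a).det = algebraMap k K t := by
  obtain ⟨π, hπ⟩ := P011.H428.exists_retr k K
  let ρ : K ⊗[k] A →ₗ[k] A := (TensorProduct.lid k A).toLinearMap ∘ₗ π.rTensor A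
  have ρ1 : ∀ c a, ρ (c ⊗ₜ a) = π c • a := fun _ _ => rfl
  have w1 : ∀ a, lf w ((1 : K) ⊗ₜ a) = w a := fun a => (lf_tmul _ _ _).trans (one_smul _ _)
  have inj : ∀ a T, lf w T = w a → ρ T = a := fun a T e => by
    rw [hb.1 (e.trans (w1 a).symm), ρ1, ← map_one (algebraMap k K), hπ, one_smul]
  have wi : Function.Injective w := fun a b e =>
    (inj a _ (w1 a)).symm.trans (inj b _ ((w1 a).trans e))
  have reg : ∀ x : A, ∃ y, x * y * x = x := fun x => by
    obtain ⟨e, he, h⟩ := IsSemisimpleRing.ideal_eq_span_idempotent (Ideal.span {w x})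
    obtain ⟨a, ha⟩ := Ideal.mem_span_singleton'.1 (h.le (Ideal.mem_span_singleton_self _))
    obtain ⟨y, hy⟩ := Ideal.mem_span_singleton'.1 (h.ge (Ideal.mem_span_singleton_self _))
    obtain ⟨T, rfl⟩ := hb.2 y
    refine ⟨ρ T, Eq.trans ?_ (inj x (1 ⊗ₜ x * T * 1 ⊗ₜ x) ?_)⟩
    · clear hy
      induction T with
      | zero => simp
      | tmul c b => simp [ρ1]
      | add b c d f => simp only [map_add, mul_add, add_mul, d, f]
    · rw [map_mul, map_mul, w1, mul_assoc, hy, ← ha, mul_assoc, he.eq]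
  have rk : finrank k A = n ^ 2 := by
    rw [← finrank_baseChange (R := K), (AlgEquiv.ofBijective _ hb).toLinearEquiv.finrank_eq]
    simp [finrank_matrix, sq]
  have r0 : 0 < finrank k A := rk ▸ pow_pos hn.pos 2
  by_cases hd : ∀ a, (w a).det = 0 → a = 0
  · have := nontrivial_of_finrank_pos r0
    have := finite_of_finrank_pos r0
    have : Algebra.IsCentral k A := ⟨fun x hx => by
      obtain ⟨c, hc⟩ := Algebra.mem_bot.1 (Algebra.IsCentral.out (K := K)
        (Subalgebra.mem_center_iff.2 fun m : Matrix (Fin n) (Fin n) K => show m * w x = w x * m by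
          obtain ⟨T, rfl⟩ := hb.2 m
          induction T with
          | zero => simp
          | tmul c b => rw [lf_tmul, smul_mul_assoc, mul_smul_comm, ← map_mul, ← map_mul,
              Subalgebra.mem_center_iff.1 hx]
          | add b c d f => rw [map_add, mul_add, add_mul, d, f]))
      exact Algebra.mem_bot.2 ⟨π c, (Algebra.algebraMap_eq_smul_one _).trans (inj x (c ⊗ₜ 1) (by
        rw [lf_tmul, map_one, ← hc, Algebra.algebraMap_eq_smul_one]))⟩⟩
    let _ : DivisionRing A := .ofIsUnitOrEqZero fun a => or_iff_not_imp_right.2 fun z => by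
      obtain ⟨y, hy⟩ := reg a
      have u := (isUnit_iff_isUnit_det (w a)).2 (Ne.isUnit fun e => z (hd a e))
      exact ⟨⟨a, y, wi (u.mul_right_cancel (by rw [← map_mul, hy, map_one, one_mul])),
        wi (u.mul_left_cancel (by rw [← map_mul, ← mul_assoc, hy, map_one, mul_one]))⟩, rfl⟩
    rcases hk with _ | ⟨F, _, _, _, _⟩
    · obtain ⟨δ, -, h⟩ := P011.Tpl.H359.eichler_gen rk ∅ Set.finite_empty 1 fun _ => one_ne_zero
      obtain ⟨a, -, h, -⟩ := h t ht (fun φ => hR.elim φ) fun _ e => e.elim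
      exact ⟨a, h K w⟩
    · have := P011.H271.GFF.mk' F k
      exact P011.H428.exists_nrd_eq rk w t
  · obtain ⟨x, h⟩ := not_forall.1 hd
    obtain ⟨h0, hx⟩ := Classical.not_imp.1 h
    obtain ⟨y, hy⟩ := reg x
    obtain ⟨r, r0, rn, h⟩ := det_idem (e := w (x * y)) (by rw [← map_mul, ← mul_assoc, hy])
      (by rw [map_mul, det_mul, h0, zero_mul]) (by_contra fun e => hx (wi
        (((isUnit_iff_isUnit_det _).2 (Ne.isUnit e)).mul_left_cancel (by
          rw [sub_mul, ← map_mul, hy, one_mul, sub_self, map_zero, mul_zero]))))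
    obtain ⟨a, b, hab⟩ := Nat.isCoprime_iff_coprime.2
      (hn.coprime_iff_not_dvd.2 (Nat.not_dvd_of_pos_of_lt r0 rn))
    refine ⟨t ^ a • (1 - x * y + t ^ b • (x * y)), ?_⟩
    rw [map_smul, ← algebraMap_smul K, det_smul, map_add, map_sub, map_one, map_smul,
      ← algebraMap_smul K (t ^ b), h, Fintype.card_fin, ← map_pow, ← map_pow, ← map_mul,
      ← zpow_natCast, ← zpow_natCast, ← _root_.zpow_mul, ← _root_.zpow_mul, ← zpow_add₀ ht, hab,
      zpow_one]

theorem nm_add (θ : K ≃ₐ[k] K) (A : Matrix (Fin n) (Fin n) K) (i j : ℕ) : nm (θ : K →+* K) A (i + j) =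
    nm (θ : K →+* K) A i * (nm (θ : K →+* K) A j).map (θ ^ i : K ≃ₐ[k] K) := by
  induction i with
  | zero => rw [zero_add, nm, one_mul]; rfl
  | succ i h =>
    rw [Nat.succ_add, nm, h, Matrix.map_mul, nm, mul_assoc, pow_succ']
    rfl

theorem nm_unit (θ : K →+* K) (A : GL (Fin n) K) : ∀ j, IsUnit (nm θ A.1 j)
  | 0 => isUnit_one
  | j + 1 => A.isUnit.mul ((nm_unit θ A j).map θ.mapMatrix)

/-- The cocycle of a semilinear map. -/
theorem cyc : AllC fun k K _ _ _ l L θ n A => ∀ ν : K, nm (θ : K →+* K) A.1 l = ν • 1 →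
    ∃ B : (K ≃ₐ[k] K) → GL (Fin n) K, (B θ).1 = A.1 ∧ (∀ σ, Fx (L : Set K) σ → (B σ).1 = 1) ∧
      ∀ σ τ, ∃ q : ℕ, (B σ).1 * (B τ).1.map σ = ν ^ q • (B (σ * τ)).1 := by
  intro k K _ _ _ _ l L θ n A hl hL _ hθ hA ν hν
  have := Fact.mk hl
  have := finite_of_finrank_pos (hL ▸ hl.pos)
  let r : (K ≃ₐ[k] K) →* (L ≃ₐ[k] L) := AlgEquiv.restrictNormalHom L
  have r1 : ∀ σ (x : L), (r σ x : K) = σ x := AlgEquiv.restrictNormalHom_apply L
  have hN : ∀ j a b, nm (θ : K →+* K) A.1 j a b ∈ L := fun j => by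
    induction j with
    | zero => exact fun a b => by rw [nm, one_apply]; split_ifs; exacts [L.one_mem, L.zero_mem]
    | succ j h =>
      intro a b
      rw [nm, mul_apply]
      exact L.sum_mem fun c _ => L.mul_mem (hA a c)
        ((r1 θ ⟨_, h c b⟩).subst (motive := (· ∈ L)) (r θ _).2)
  have r2 : ∀ σ i, r θ ^ i = r σ → ∀ j, (nm (θ : K →+* K) A.1 j).map (θ ^ i : K ≃ₐ[k] K) =
      (nm (θ : K →+* K) A.1 j).map σ := fun σ i e j => Matrix.ext fun a b =>
    (r1 _ ⟨_, hN j a b⟩).symm.trans (by rw [map_pow, e]; exact r1 _ _)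
  have r3 : ∀ σ, Fx (L : Set K) σ ↔ r σ = 1 := fun σ => ⟨fun h => AlgEquiv.ext fun x =>
    Subtype.ext ((r1 σ x).trans (h _ x.2)), fun h x e => (r1 σ ⟨x, e⟩).symm.trans (by rw [h]; rfl)⟩
  have hp := fun σ => mem_powers_of_prime_card ((IsGalois.card_aut_eq_finrank k L).trans hL)
    (g' := σ) (mt (r3 θ).2 hθ)
  have ho := (orderOf_eq_card_of_forall_mem_powers hp).trans
    ((IsGalois.card_aut_eq_finrank k L).trans hL)
  choose j hj using fun σ => hp (r σ)
  have hj : ∀ σ, r θ ^ (j σ % l) = r σ := fun σ =>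
    (ho ▸ pow_mod_orderOf (r θ) (j σ)).trans (hj σ)
  have hu : ∀ σ i, r θ ^ i = r σ → j σ % l = i % l := fun σ i e => by
    simpa [ho, Nat.ModEq] using pow_eq_pow_iff_modEq.1 ((hj σ).trans e.symm)
  have hq : ∀ q i, nm (θ : K →+* K) A.1 (l * q + i) = ν ^ q • nm (θ : K →+* K) A.1 i := fun q i => by
    induction q with
    | zero => simp
    | succ q h =>
      rw [Nat.mul_succ, add_comm _ l, add_assoc, nm_add, r2 1 l (by
        rw [← ho, pow_orderOf_eq_one, map_one]), hν, h, smul_one_mul, pow_succ', mul_smul]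
      rfl
  let B := fun σ => (nm_unit (θ : K →+* K) A (j σ % l)).unit
  have B0 : ∀ σ, Fx (L : Set K) σ → (B σ).1 = 1 := fun σ e =>
    congrArg (nm (θ : K →+* K) A.1) (hu σ 0 ((r3 σ).1 e ▸ pow_zero _))
  have B1 : (B θ).1 = A.1 := (congrArg (nm (θ : K →+* K) A.1) ((hu θ 1 (pow_one _)).trans
    (Nat.mod_eq_of_lt hl.one_lt))).trans (by simp [nm])
  refine ⟨B, B1, B0, fun σ τ => ⟨(j σ % l + j τ % l) / l, ?_⟩⟩
  simp only [B, IsUnit.unit_spec]
  rw [← r2 σ _ (hj σ), ← nm_add, hu (σ * τ) (j σ % l + j τ % l)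
    (by rw [pow_add, hj, hj, map_mul]), ← hq, Nat.div_add_mod]

open P011LD P011LB

/-- **Hilbert's theorem 90.** -/
theorem h9 : H9 := by
  intro k K _ _ _ _ l L θ n A hl hL hG hθ hA hν
  have := finite_of_finrank_pos (hL ▸ hl.pos)
  obtain ⟨B, B1, B0, h⟩ := cyc k K l L θ n A hl hL hG hθ hA 1 (hν.trans (one_smul _ _).symm)
  obtain ⟨g, hg⟩ := h90 (Γ := ⊤) (fun σ => (B σ).1) (fun σ _ τ _ => (h σ τ).elim fun q e => by
    rw [e, one_pow, one_smul]) (Op.of_field L fun σ _ e => B0 σ e)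
  refine ⟨g, fun i j => fixed_sub L fun σ e => ?_, B1 ▸ hg θ trivial⟩
  have := hg σ trivial
  rw [B0 σ fun x m => e ⟨x, m⟩, one_mul] at this
  exact congrFun (congrFun this i) j

/-- **The reduced norm is surjective.** -/
theorem ari : ARI := by
  rintro k K _ _ _ _ l L θ n A hl hL hG hθ hA hk hR rfl ⟨ν, hν⟩ t ht
  have := finite_of_finrank_pos (hL ▸ hl.pos)
  have : NeZero n := ⟨hl.ne_zero⟩
  obtain ⟨B, B1, B0, h⟩ := cyc k K n L θ n A hl hL hG hθ hA ν hν
  have S := sl_hom (Γ := ⊤) B B (fun σ _ τ _ => (h σ τ).elim fun _ e => ⟨_, e, e⟩)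
    (Op.of_field L fun σ _ e => ⟨1, and_self_iff.2 ((B0 σ e).trans (one_smul _ _).symm)⟩)
  let p (σ : K ≃ₐ[k] K) := cj (B σ) σ
  have p1 : ∀ σ (c : K) x, p σ (c • x) = σ c • p σ x := fun σ => cj_smul _ _
  let C : Subalgebra k (Matrix (Fin n) (Fin n) K) :=
    { carrier := {x | ∀ σ, p σ x = x}
      mul_mem' := fun a b σ => by rw [map_mul, a σ, b σ]
      add_mem' := fun a b σ => by rw [map_add, a σ, b σ]
      algebraMap_mem' := fun c σ => by
        rw [IsScalarTower.algebraMap_apply k K, Algebra.algebraMap_eq_smul_one, p1, map_one,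
          AlgEquiv.commutes] }
  refine (det_sur hk hR hl C.val ⟨?_, fun x => ?_⟩ ht).elim fun a ha => ?_
  · let b := Module.Basis.ofVectorSpace k C
    have b1 : LinearIndependent K (C.val ∘ b) := ind (fun σ => (p σ).toAddMonoidHom) p1
      (fun σ i => (b i).2 σ) (b.linearIndependent.map' C.val.toLinearMap
        (LinearMap.ker_eq_bot.2 Subtype.val_injective))
    refine (injective_iff_map_eq_zero _).2 fun T hT => ?_
    obtain ⟨c, rfl⟩ := TensorProduct.eq_repr_basis_right b T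
    rw [map_finsuppSum] at hT
    simp only [lf_tmul] at hT
    rw [linearIndependent_iff.1 b1 c hT, Finsupp.sum_zero_index]
  · refine (Submodule.span_le (p := (lf C.val).range.toSubmodule)).2 ?_ (S.span.ge trivial)
    exact fun y e => ⟨1 ⊗ₜ ⟨y, fun σ => e σ trivial⟩, (lf_tmul _ _ _).trans (one_smul _ _)⟩
  · have h := fun σ => (cj_mul (B σ) σ a.1).symm.trans (congrArg (· * _) (a.2 σ))
    refine ⟨GeneralLinearGroup.mkOfDetNeZero a.1 (ha.trans_ne (by simpa)), fun i i' =>
      fixed_sub L fun σ e => ?_, B1 ▸ h θ, ha⟩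
    have := h σ
    rw [B0 σ fun x m => e ⟨x, m⟩, one_mul, mul_one] at this
    exact congrFun (congrFun this i) i'

end Vale.Agent.P011UY
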