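import Vale.Agent.P011UE.Spec
import Vale.Agent.P011.H268.Csa

/-!
The topology of `L ⊗ D`, of its group of elements of reduced norm one, and the reduced norm.
-/

open Module Filter TensorProduct Topology

namespace Vale.Agent.P011UY

open Vale.Agent.P011UE
open Vale.Agent.P011.W (HasNrd Spl spl_iff)

/-- The closure of the image of an open subgroup. -/
theorem q_abs {G H : Type} [Group G] [Group H] [TopologicalSpace H] [IsTopologicalGroup H]
    (δ : G →* H) (hδ : DenseRange δ) (N : Subgroup G) (hn : N.Normal)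
    (hU : ∀ᶠ h in 𝓝 (1 : H), ∀ g, δ g = h → g ∈ N) :
    ∃ W : Subgroup H, IsOpen (W : Set H) ∧ W.Normal ∧ N = W.comap δ := by
  let W : Subgroup H := (N.map δ).topologicalClosure
  have hW : (W : Set H) = closure (δ '' N) := by
    rw [Subgroup.topologicalClosure_coe, Subgroup.coe_map]
  have hcl : IsClosed (W : Set H) := Subgroup.isClosed_topologicalClosure _
  have hsub : ∀ n ∈ N, δ n ∈ W := fun n hn => subset_closure ⟨n, hn, rfl⟩
  obtain ⟨U, h1, h2, h3⟩ := eventually_nhds_iff.1 hU
  refine ⟨W, W.isOpen_of_mem_nhds (g := 1) (mem_of_superset (h2.mem_nhds h3)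
    ((Dense.open_subset_closure_inter hδ h2).trans (closure_mono ?_))), ⟨fun w hw h => ?_⟩,
    Subgroup.ext fun g => ⟨hsub g, fun hg => ?_⟩⟩
  · rintro _ ⟨e, g, rfl⟩
    exact ⟨g, h1 _ e g rfl, rfl⟩
  · refine hδ.induction_on h (hcl.preimage (f := fun x : H => x * w * x⁻¹) (by fun_prop)) fun g => ?_
    refine closure_minimal (s := δ '' N) ?_ (hcl.preimage (f := fun x : H => δ g * x * (δ g)⁻¹)
      (by fun_prop)) (hW.le hw)
    rintro _ ⟨n, e, rfl⟩
    rw [Set.mem_preimage, ← map_inv, ← map_mul, ← map_mul]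
    exact hsub _ (hn.conj_mem n e g)
  · obtain ⟨_, e1, n, e2, rfl⟩ := mem_closure_iff.1 (hW.le hg) ((fun h : H => h⁻¹ * δ g) ⁻¹' U)
      (h2.preimage (by fun_prop)) (by rwa [Set.mem_preimage, inv_mul_cancel])
    simpa using N.mul_mem e2 (h1 _ e1 (n⁻¹ * g) (by rw [map_mul, map_inv]))

variable {k : Type} [Field k] (L : Type) [NormedField L] [Algebra k L] (A : Type) [Ring A]
  [Algebra k A] [FiniteDimensional k A]

/-- The natural topology, and the coordinates. -/
abbrev tp : TopologicalSpace (L ⊗[k] A) := moduleTopology L (L ⊗[k] A)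
noncomputable abbrev bs : Basis (Fin (finrank k A)) L (L ⊗[k] A) :=
  Algebra.TensorProduct.basis L (finBasis k A)

attribute [local instance] tp

local instance : IsModuleTopology L (L ⊗[k] A) := ⟨rfl⟩
local instance : IsTopologicalRing (L ⊗[k] A) := IsModuleTopology.isTopologicalRing L _

variable {L A}

theorem ind_bs : IsInducing (bs (k := k) L A).equivFun := by
  have h1 := IsModuleTopology.continuous_of_linearMap (bs (k := k) L A).equivFun.toLinearMap
  have h2 := IsModuleTopology.continuous_of_linearMap (bs (k := k) L A).equivFun.symm.toLinearMap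
  exact (⟨(bs L A).equivFun.toEquiv, h1, h2⟩ : L ⊗[k] A ≃ₜ _).isInducing

theorem td_bs {ι : Type} {F : Filter ι} {f : ι → L ⊗[k] A} {x : L ⊗[k] A} :
    Tendsto f F (𝓝 x) ↔ ∀ j, Tendsto (fun a => (bs L A).repr (f a) j) F (𝓝 ((bs L A).repr x j)) :=
  ind_bs.tendsto_nhds_iff.trans tendsto_pi_nhds

theorem repr_tm (y : A) (j : Fin (finrank k A)) :
    (bs L A).repr (1 ⊗ₜ y) j = algebraMap k L ((finBasis k A).repr y j) := by
  simp [Algebra.TensorProduct.basis_repr_tmul]

theorem gp_grp (n : ℕ) : IsTopologicalGroup (GP k A L n) := by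
  have c : Continuous fun x : GP k A L n => x.1.1 := continuous_induced_dom
  have m : Continuous fun x : GP k A L n => Algebra.leftMulMatrix (bs L A) x.1.1 :=
    (IsModuleTopology.continuous_of_linearMap
      (Algebra.leftMulMatrix (bs (k := k) L A)).toLinearMap).comp c
  refine { continuous_mul := continuous_induced_rng.2 ((c.comp continuous_fst).mul
    (c.comp continuous_snd)), continuous_inv := continuous_induced_rng.2 (ind_bs.continuous_iff.2 ?_) }
  have e : ∀ x : GP k A L n, Algebra.leftMulMatrix (bs L A) (x⁻¹).1.1 *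
      Algebra.leftMulMatrix (bs L A) x.1.1 = 1 := fun x => by
    rw [← map_mul, show (x⁻¹).1.1 * x.1.1 = 1 from x.1.inv_mul, map_one]
  refine (((m.matrix_det.inv₀ fun x => ?_).smul m.matrix_adjugate).matrix_mulVec
    (continuous_const (y := ⇑((bs (k := k) L A).repr 1)))).congr fun x => ?_
  · exact right_ne_zero_of_mul (by rw [← Matrix.det_mul, e, Matrix.det_one]; exact one_ne_zero)
  · show ((Algebra.leftMulMatrix (bs L A) x.1.1).det⁻¹ •
      (Algebra.leftMulMatrix (bs L A) x.1.1).adjugate).mulVec _ = _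
    rw [← Ring.inverse_eq_inv, ← Matrix.inv_def, Matrix.inv_eq_left_inv (e x),
      Algebra.leftMulMatrix_mulVec_repr, mul_one]
    rfl

variable {D : Type} [DivisionRing D] [Algebra k D] [FiniteDimensional k D] {n : ℕ} {N : D →* k}

/-- The element has reduced norm one. -/
def One (n : ℕ) (x : L ⊗[k] D) : Prop := ∀ (Ω : Type) [Field Ω] [Algebra L Ω]
  (F : L ⊗[k] D →ₐ[L] Matrix (Fin n) (Fin n) Ω), (F x).det = 1

omit [FiniteDimensional k D] in
theorem one_gp (x : GP k D L n) : One n x.1.1 := by
  refine Subgroup.closure_induction (p := fun x _ => One n x.1) (fun _ h => h)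
    (fun Ω _ _ F => by simp) (fun x y _ _ h h' Ω _ _ F => ?_) (fun x _ h Ω _ _ F => ?_) x.2
  · rw [Units.val_mul, map_mul, Matrix.det_mul, h, h', one_mul]
  · have : (F x.1).det * (F (x⁻¹).1).det = 1 := by
      rw [← Matrix.det_mul, ← map_mul, Units.mul_inv, map_one, Matrix.det_one]
    rwa [h, one_mul] at this

omit [FiniteDimensional k D] in
theorem det_tm (h : Dv k D n N) (Ω : Type) [Field Ω] [Algebra L Ω]
    (F : L ⊗[k] D →ₐ[L] Matrix (Fin n) (Fin n) Ω) (d : D) :
    (F (1 ⊗ₜ d)).det = algebraMap L Ω (algebraMap k L (N d)) := by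
  let _ : Algebra k Ω := ((algebraMap L Ω).comp (algebraMap k L)).toAlgebra
  have : IsScalarTower k L Ω := .of_algebraMap_eq fun _ => rfl
  exact h.nrd d Ω ((F.restrictScalars k).comp Algebra.TensorProduct.includeRight)

variable (L) in
/-- The reduced norm is continuous. -/
theorem ex_nrd (h : Dv k D n N) : ∃ g : L ⊗[k] D → L, Continuous g ∧
    (∀ d, g (1 ⊗ₜ d) = algebraMap k L (N d)) ∧ ∀ x, One n x → g x = 1 := by
  have := h.central
  obtain ⟨f⟩ := P011.H268.exists_split_sepClosed (E := AlgebraicClosure L) h.rank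
  let F : L ⊗[k] D →ₐ[L] Matrix (Fin n) (Fin n) (AlgebraicClosure L) :=
    Algebra.TensorProduct.lift (Algebra.ofId L _) f fun x y => Algebra.commutes x _
  obtain ⟨ρ, hρ⟩ := (Algebra.linearMap L (AlgebraicClosure L)).exists_leftInverse_of_injective
    (LinearMap.ker_eq_bot.2 (algebraMap L _).injective)
  have r : ∀ c, ρ (algebraMap L _ c) = c := LinearMap.congr_fun hρ
  refine ⟨fun x => ρ (F x).det, ?_, fun d => (congrArg ρ (det_tm h _ F d)).trans (r _),
    fun x e => (congrArg ρ ((e _ F).trans (map_one _).symm)).trans (r 1)⟩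
  let m := ρ.compMultilinearMap ((Matrix.detRowAlternating.toMultilinearMap.restrictScalars L
    ).compLinearMap fun i : Fin n => (LinearMap.proj i).comp F.toLinearMap)
  have e : ∀ x, ρ (F x).det = ∑ s : Fin n → Fin (finrank k D),
      (∏ i, (bs L D).equivFun x (s i)) • m fun i => bs L D (s i) := fun x => by
    simp only [← m.map_smul_univ]
    rw [← m.map_sum fun _ j => (bs L D).equivFun x j • bs L D j]
    simp only [Basis.sum_equivFun]
    rfl
  simp only [e]
  have := (ind_bs (k := k) (L := L) (A := D)).continuous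
  fun_prop

/-- A division algebra is not split. -/
theorem not_spl (h : Dv k D n N) (d : ∀ x : L ⊗[k] D, x ≠ 0 → IsUnit x) :
    ¬Spl D n (algebraMap k L) := fun s => by
  obtain ⟨f⟩ := spl_iff.1 s
  obtain ⟨n, rfl⟩ := Nat.exists_eq_add_of_le' h.le
  let F : L ⊗[k] D →ₐ[L] Matrix (Fin (n + 2)) (Fin (n + 2)) L :=
    Algebra.TensorProduct.lift (Algebra.ofId L _) f fun x y => Algebra.commutes x _
  have i : Function.Injective F.toLinearMap := (injective_iff_map_eq_zero _).2 fun x e =>
    by_contra fun z => ((d x z).map F).ne_zero e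
  obtain ⟨x, e⟩ := (LinearMap.injective_iff_surjective_of_finrank_eq_finrank (by
    simp [finrank_matrix, h.rank, sq])).1 i (Matrix.single 0 1 1)
  have e : F x = Matrix.single 0 1 1 := e
  have z : x ≠ 0 := fun z => by simpa [z] using congrFun (congrFun e 0) 1
  refine (((d x z).mul (d x z)).map F).ne_zero ?_
  rw [map_mul, e, Matrix.single_mul_single_of_ne _ _ _ _ one_ne_zero]

end Vale.Agent.P011UY
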