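import Vale.Agent.P011U.Top
import Vale.Agent.P011LS.Top
import Vale.Agent.P011UC.Main
import Vale.Agent.P011UD.Aut
import Vale.Agent.P011UD.Cls
import Vale.Agent.P011UQ2.Main
import Vale.Agent.P011UH.T1
import Vale.Agent.P011UH.TI
import Vale.Agent.P011UH.Cl
import Vale.Agent.P011UI.Exa
import Vale.Agent.P011UR.RD
import Vale.Agent.P011UR.RE
import Vale.Agent.P011UE.Main
import Vale.Agent.P011UQ.Asm
import Vale.Agent.P011UQ.Bqf
import Vale.Agent.P011UQ74.Bqn
import Vale.Agent.P011UQ7.Twf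
import Vale.Agent.P011UQ6.Ldv
import Vale.Agent.P011UQ4.Main
import Vale.Agent.P011UQ5.Exq
import Vale.Agent.P011UGA.Main
import Vale.Agent.P011UGG.Gal
import Vale.Agent.P011UGL.Cox
import Vale.Agent.P011UGF1.Aff
import Vale.Agent.P011UGC.Conn
import Vale.Agent.P011UGM1.Main
import Vale.Agent.P011UGC5.Lv
import Vale.Agent.P011UGI.Main
import Vale.Agent.P011UGV1.ValK
import Vale.Agent.P011UGR1.Main
import Vale.Agent.P011UGB1.Main
import Vale.Agent.P011UGP1.Main
import Vale.Agent.P011UTS.Tiso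
import Vale.Agent.P011UZG.Bg2
import Vale.Agent.P011UK.Opi
import Vale.Agent.P011UG.Main
import Vale.Agent.P011UO.Plug
import Vale.Agent.P011UO2.Main
import Vale.Agent.P011UD5.Six
import Vale.Agent.P011UHB.Plug
import Vale.Agent.P011UTR.Main
import Vale.Agent.P011UV4.Cmp
import Vale.Agent.P011UOJ.Main
import Vale.Agent.P011UBS.Opb
import Vale.Agent.P011UF.Main
import Vale.Agent.P011UF5.Main
import Vale.Agent.P011UF6.Main
import Vale.Agent.P011UF7.Main
import Vale.Agent.P011UF8.Main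
import Vale.Agent.P011UF9.Main

/-!
The target from the rows which are still open.
-/

namespace Vale.Agent.P011UY

open Vale.Agent.P011U

theorem bqf : P011UQ.BQF := P011UQ.bqf (P011UQ7.twf P011UQ6.ldv P011UQ4.lq2) P011UQ5.exq

theorem cq : CQ := P011UQ.cq_of P011UQ74.bqn bqf

theorem opi : OPI := P011UK.opi cls

theorem dO : DO := P011UO.dO bqf P011UO2.do2 P011UD5.do6

theorem ti : TI := P011UH.ti_of P011UE.mpd

theorem fi : P011UE.FI :=
  P011UE.fi P011UE.nst P011UE.ram (P011UL.rss_of (P011UN.nem P011UE.ram))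
    (P011UE.step (P011UZ.atl P011UT.tn2) (P011UM.splq P011UE.nst P011UE.ram) P011UE.core')
    P011UE.core' (P011UM.denc P011UE.nst) P011UE.dens

theorem dopp (ia : IA) (tx : P011UGA.TORX) (b2 : P011UGA.BB2) : DOPP :=
  P011UGA.dopp (P011UGG.gal (P011UGL.ca P011UGL.cox P011UGF1.aff)) P011UGC.conn P011UGM1.mvn
    P011UGM1.mvs P011UGC5.lv2 P011UGM1.nag P011UGI.isof (P011UTS.tiso P011UC.nfx0 P011UC.den0) tx
    P011UGP1.plc P011UGP1.sgn P011UGV1.valk
    (P011UGR1.rk2 (P011UGB1.ba2 ia) (P011UGB1.ba3 ia) b2 (P011UZG.bg2 P011UGV1.valk)) opi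

theorem f1 (ia : IA) (emb : P011UF.EMB) (val : P011UF.VAL) : F1 :=
  P011UF.f1_of P011UC.den0 ia (P011UF8.qm (P011UF7.qa fi P011UE.ram emb val P011UF5.locd
    P011UF6.gd1 P011UF6.gd2) P011UF7.qs) P011UF9.heis

theorem hb (red : P011UHB.RED) : HB := P011UHB.hb_pl red (P011UTR.trn)

theorem e6i (red : P011UHB.RED) (bq : P011UHB.BQ3) : E6I :=
  P011UHB.e6i_pl (hb red) bq P011UV4.cmp (P011UOJ.opj P011UBS.opb)

theorem q1_of (ia : IA) (tx : P011UGA.TORX) (b2 : P011UGA.BB2) (red : P011UHB.RED)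
    (bq : P011UHB.BQ3) (emb : P011UF.EMB) (val : P011UF.VAL) (f2 : F2) : Q1 :=
  top P011LS.int cls ex2 dg2 nta (hb red) cq P011UG.opg (e6i red bq) opi
    (dopp ia tx b2) dO (f1 ia emb val) f2 ia P011UH.t1i P011UI.isa
    (P011UR.isd_of P011UH.cl P011UI.recH P011UB.aut) (P011UR.ise_of P011UH.cl P011UI.recH P011UB.aut)
    ti P011UC.eqa P011UQ2.eqt P011UQ2.trn

end Vale.Agent.P011UY
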