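import Vale.Agent.P011UE.Spec
import Vale.Agent.P011.H380.Good7.SplitMaxF
import Vale.Agent.P011.H973.Full.PlaceNF
import Vale.Agent.P011.W.RedC
import Vale.Agent.P011.D4X.H862.Good

/-!
Almost all places split a division algebra, and there are infinitely many places.
-/

open NumberField IsDedekindDomain

namespace Vale.Agent.P011UY

open Vale.Agent.P011UE Vale.Agent.P011
open Vale.Agent.P011.H308 (plHos toPl toPl_algebraMap)
open Vale.Agent.P011.H973.Full (plHos_injective exists_eq_plHos)

theorem inf_of {α : Type} (h : ∀ S : Finset α, ∃ v, v ∉ S) : Infinite α :=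
  .of_not_fintype fun _ => (h .univ).elim fun v e => e (Finset.mem_univ v)

theorem ram : RAM := fun k D _ _ _ _ n N h => by
  have := h.central
  rcases h.glob with _ | ⟨F, _, _, _, _⟩
  · obtain ⟨S, hS, hs⟩ := W.spl_almost (W.deg_pos h.rank) h.rank
    have := inf_of (D4X.exists_notMem (F := k))
    refine ⟨(hS.image fun v => plHos k v).subset fun w hw => ?_, .of_injective _ plHos_injective⟩
    obtain ⟨v, rfl⟩ := exists_eq_plHos w
    refine ⟨v, by_contra fun e => hw ?_, rfl⟩
    have := (hs v e k v (Ideal.ext fun _ => Iff.rfl)).comp (toPl k v)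
    rwa [show (toPl k v).comp (W.pl (F := k) k v) = algebraMap k _ from
      RingHom.ext toPl_algebraMap] at this
  · have := H271.GFF.mk' F k
    obtain ⟨S, hS⟩ := H380.Good7.exists_spl_setF h.rank
    exact ⟨S.finite_toSet.subset fun v hv => by_contra fun e => hv (hS v e),
      inf_of H380.Good7.exists_notMemF⟩

end Vale.Agent.P011UY
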